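import Vale.Agent.P011.H73.Sp2
import Vale.Agent.P011.H973.AbovePl

/-!
# The norm of a finite separable extension is open at one, with nearness (helper813)

For a finite separable extension `R'/R` and finitely many places of `R`: every element of `R` which
is close to one at these places is, to any precision, the norm of an element of `R'` which is close
to one at all places above. There is no condition on the characteristic or on the degree.
-/

open Module Polynomial

set_option linter.unusedSectionVars false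
set_option linter.style.haveILetI false

namespace Vale.Agent.P011.H813

section general

variable {R R' : Type*} [Field R] [Field R'] [Algebra R R'] [FiniteDimensional R R']

/-- The norm of `1 + r θ`. -/
theorem exists_taylor (θ : R') : ∃ Q : R[X], ∀ r : R,
    Algebra.norm R (1 + r • θ) = 1 + Algebra.trace R R' θ * r + Q.eval r * r ^ 2 := by
  classical
  let c := Module.finBasis R R'
  refine ⟨(Matrix.det (1 + (X : R[X]) • (Algebra.leftMulMatrix c θ).map C)).divX.divX,
    fun r => ?_⟩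
  rw [Algebra.norm_eq_matrix_det c, map_add, map_one, map_smul, Matrix.det_one_add_smul,
    Algebra.trace_eq_matrix_trace c]

/-- Polynomials are bounded on the integers of an ultrametric absolute value. -/
theorem exists_bound (ν : AbsoluteValue R ℝ) (Q : R[X]) :
    ∃ C : ℝ, 1 ≤ C ∧ ∀ r : R, ν r ≤ 1 → ν (Q.eval r) ≤ C := by
  refine ⟨1 + ∑ i ∈ Finset.range (Q.natDegree + 1), ν (Q.coeff i), ?_, fun r hr => ?_⟩
  · have : 0 ≤ ∑ i ∈ Finset.range (Q.natDegree + 1), ν (Q.coeff i) :=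
      Finset.sum_nonneg fun i _ => ν.nonneg _
    linarith
  · rw [eval_eq_sum_range]
    refine (ν.sum_le _ _).trans ?_
    refine le_trans (Finset.sum_le_sum (g := fun i => ν (Q.coeff i)) fun i _ => ?_) (by linarith)
    rw [map_mul, map_pow]
    calc ν (Q.coeff i) * ν r ^ i ≤ ν (Q.coeff i) * 1 :=
          mul_le_mul_of_nonneg_left (pow_le_one₀ (ν.nonneg r) hr) (ν.nonneg _)
      _ = ν (Q.coeff i) := mul_one _

/-- In an ultrametric absolute value elements close to one have absolute value one. -/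
theorem eq_one_of_near {A : Type*} [Field A] (ν : AbsoluteValue A ℝ)
    (hν : ∀ x y, ν (x + y) ≤ max (ν x) (ν y)) {x : A} (h : ν (x - 1) < 1) : ν x = 1 := by
  have h1 : ν x ≤ 1 := by
    have h2 := hν (x - 1) 1
    rw [sub_add_cancel, map_one] at h2
    exact h2.trans (max_le h.le le_rfl)
  refine le_antisymm h1 ?_
  have h2 := hν x (1 - x)
  rw [add_sub_cancel, map_one, ← neg_sub, ν.map_neg] at h2
  rcases le_max_iff.1 h2 with h3 | h3
  · exact h3
  · linarith

variable {ι κ : Type*} (S : Finset ι) (ν : ι → AbsoluteValue R ℝ) (μ : κ → AbsoluteValue R' ℝ)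

/-- **The norm is open at one, with nearness**, for a finite family of ultrametric absolute values
`ν i` below and an arbitrary family of ultrametric absolute values `μ j` above. -/
theorem norm_open_abs [Algebra.IsSeparable R R']
    (hν : ∀ i ∈ S, ∀ x y, ν i (x + y) ≤ max (ν i x) (ν i y))
    (hμ : ∀ j, ∀ x y, μ j (x + y) ≤ max (μ j x) (μ j y))
    (hsm : ∀ θ : R', ∀ δ₁ : ℝ, 0 < δ₁ → ∃ δ : ℝ, 0 < δ ∧ ∀ c : R, (∀ i ∈ S, ν i c < δ) →
      ∀ j, μ j (c • θ) < δ₁)
    {δ₁ : ℝ} (hδ₁ : 0 < δ₁) : ∃ δ : ℝ, 0 < δ ∧ ∀ x : R, (∀ i ∈ S, ν i (x - 1) < δ) →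
      ∀ ε : ℝ, 0 < ε → ∃ x₁ : R', x₁ ≠ 0 ∧ (∀ i ∈ S, ν i (x / Algebra.norm R x₁ - 1) < ε) ∧
        (∀ i ∈ S, ν i (Algebra.norm R x₁ - x) < ε) ∧ ∀ j, μ j (x₁ - 1) < δ₁ := by
  classical
  obtain ⟨θ, hθ⟩ := Algebra.trace_surjective R R' 1
  obtain ⟨Q, hQ⟩ := exists_taylor (R := R) θ
  have hQ' : ∀ r : R, Algebra.norm R (1 + r • θ) = 1 + r + Q.eval r * r ^ 2 := fun r => by
    rw [hQ, hθ, one_mul]
  choose C hC1 hC using fun i => exists_bound (ν i) Q
  -- a common bound
  obtain ⟨M, hM1, hM⟩ : ∃ M : ℝ, 1 ≤ M ∧ ∀ i ∈ S, C i ≤ M := by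
    refine ⟨1 + ∑ i ∈ S, C i, ?_, fun i hi => ?_⟩
    · have : 0 ≤ ∑ i ∈ S, C i := Finset.sum_nonneg fun i _ => zero_le_one.trans (hC1 i)
      linarith
    · have := Finset.single_le_sum (f := C) (fun i _ => zero_le_one.trans (hC1 i)) hi
      linarith
  have hM0 : 0 < M := lt_of_lt_of_le one_pos hM1
  set δ₂ : ℝ := min δ₁ (1 / 2) with hδ₂
  have hδ₂0 : 0 < δ₂ := lt_min hδ₁ (by norm_num)
  have hδ₂1 : δ₂ < 1 := (min_le_right _ _).trans_lt (by norm_num)
  obtain ⟨δ', hδ'0, hδ'⟩ := hsm θ δ₂ hδ₂0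
  set δ : ℝ := min δ' (1 / (2 * M)) with hδ
  have hδ0 : 0 < δ := lt_min hδ'0 (by positivity)
  have hδM : δ * M ≤ 1 / 2 := by
    have h1 : δ ≤ 1 / (2 * M) := min_le_right _ _
    calc δ * M ≤ 1 / (2 * M) * M := mul_le_mul_of_nonneg_right h1 hM0.le
      _ = 1 / 2 := by field_simp
  have hδ1 : δ ≤ 1 / 2 := by
    calc δ = δ * 1 := (mul_one _).symm
      _ ≤ δ * M := mul_le_mul_of_nonneg_left hM1 hδ0.le
      _ ≤ 1 / 2 := hδM
  -- the iteration
  have key : ∀ x : R, (∀ i ∈ S, ν i (x - 1) < δ) → S.Nonempty → ∀ n : ℕ, ∃ y : R',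
      Algebra.norm R y ≠ 0 ∧ (∀ i ∈ S, ν i (x / Algebra.norm R y - 1) < δ * (1 / 2) ^ n) ∧
        ∀ j, μ j (y - 1) < δ₂ := by
    intro x hx hS n
    obtain ⟨i₀, hi₀⟩ := hS
    have hx0 : x ≠ 0 := by
      rintro rfl
      have h1 := hx i₀ hi₀
      rw [zero_sub, (ν i₀).map_neg, map_one] at h1
      linarith
    induction n with
    | zero =>
      refine ⟨1, by rw [map_one]; exact one_ne_zero, fun i hi => ?_, fun j => ?_⟩
      · rw [map_one, div_one, pow_zero, mul_one]
        exact hx i hi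
      · rw [sub_self, map_zero]
        exact hδ₂0
    | succ n ih =>
      obtain ⟨y, hy0, hy1, hy2⟩ := ih
      set c : R := x / Algebra.norm R y - 1 with hc
      have hpow : (1 / 2 : ℝ) ^ n ≤ 1 := pow_le_one₀ (by norm_num) (by norm_num)
      have hcδ : ∀ i ∈ S, ν i c < δ := fun i hi => (hy1 i hi).trans_le
        (mul_le_of_le_one_right hδ0.le hpow)
      set u : R := 1 + c + Q.eval c * c ^ 2 with hu
      have hNu : Algebra.norm R (1 + c • θ) = u := hQ' c
      have hq : ∀ i ∈ S, ν i (Q.eval c * c ^ 2) ≤ ν i c * (1 / 2) := by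
        intro i hi
        have h1 : ν i c ≤ 1 := (hcδ i hi).le.trans (hδ1.trans (by norm_num))
        have h0 := (ν i).nonneg c
        rw [map_mul, map_pow]
        have h2 : ν i (Q.eval c) ≤ M := (hC i c h1).trans (hM i hi)
        calc ν i (Q.eval c) * ν i c ^ 2 ≤ M * ν i c ^ 2 :=
              mul_le_mul_of_nonneg_right h2 (pow_nonneg h0 2)
          _ = (ν i c * M) * ν i c := by ring
          _ ≤ (δ * M) * ν i c := by
              refine mul_le_mul_of_nonneg_right ?_ h0
              exact mul_le_mul_of_nonneg_right (hcδ i hi).le hM0.le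
          _ ≤ 1 / 2 * ν i c := mul_le_mul_of_nonneg_right hδM h0
          _ = ν i c * (1 / 2) := mul_comm _ _
      have hu1 : ∀ i ∈ S, ν i u = 1 := by
        intro i hi
        refine eq_one_of_near (ν i) (hν i hi) ?_
        have e : u - 1 = c + Q.eval c * c ^ 2 := by rw [hu]; ring
        rw [e]
        refine (hν i hi _ _).trans_lt (max_lt ?_ ?_)
        · exact (hcδ i hi).trans_le (hδ1.trans (by norm_num))
        · refine (hq i hi).trans_lt ?_
          have := hcδ i hi
          have := (ν i).nonneg c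
          linarith
      have hu0 : u ≠ 0 := by
        intro h
        have h1 := hu1 i₀ hi₀
        rw [h, map_zero] at h1
        exact zero_ne_one h1
      have hN : Algebra.norm R (y * (1 + c • θ)) = Algebra.norm R y * u := by
        rw [map_mul, hNu]
      refine ⟨y * (1 + c • θ), by rw [hN]; exact mul_ne_zero hy0 hu0, fun i hi => ?_, fun j => ?_⟩
      · have e : x / Algebra.norm R (y * (1 + c • θ)) - 1 = -(Q.eval c * c ^ 2) / u := by
          rw [hN, div_mul_eq_div_div]
          have e1 : x / Algebra.norm R y = 1 + c := by rw [hc]; ring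
          rw [e1, div_sub_one hu0]
          congr 1
          rw [hu]
          ring
        rw [e, map_div₀, hu1 i hi, div_one, (ν i).map_neg]
        refine (hq i hi).trans_lt ?_
        rw [pow_succ, ← mul_assoc]
        exact mul_lt_mul_of_pos_right (hy1 i hi) (by norm_num)
      · have h1 : μ j (c • θ) < δ₂ := hδ' c (fun i hi => (hcδ i hi).trans_le (min_le_left _ _)) j
        have h2 : μ j y = 1 := eq_one_of_near (μ j) (hμ j) ((hy2 j).trans hδ₂1)
        have e : y * (1 + c • θ) - 1 = (y - 1) + y * (c • θ) := by ring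
        rw [e]
        refine (hμ j _ _).trans_lt (max_lt (hy2 j) ?_)
        rwa [map_mul, h2, one_mul]
  refine ⟨δ, hδ0, fun x hx ε hε => ?_⟩
  rcases S.eq_empty_or_nonempty with rfl | hS
  · refine ⟨1, one_ne_zero, by simp, by simp, fun j => ?_⟩
    rw [sub_self, map_zero]
    exact hδ₁
  · obtain ⟨n, hn⟩ := exists_pow_lt_of_lt_one hε (show (1 / 2 : ℝ) < 1 by norm_num)
    obtain ⟨y, hy0, hy1, hy2⟩ := key x hx hS n
    have hlt : ∀ i ∈ S, ν i (x / Algebra.norm R y - 1) < ε := fun i hi => by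
      refine (hy1 i hi).trans (lt_of_le_of_lt ?_ hn)
      calc δ * (1 / 2) ^ n ≤ 1 * (1 / 2) ^ n :=
            mul_le_mul_of_nonneg_right (hδ1.trans (by norm_num)) (by positivity)
        _ = (1 / 2) ^ n := one_mul _
    refine ⟨y, ?_, hlt, fun i hi => ?_, fun j => (hy2 j).trans_le (min_le_left _ _)⟩
    · rintro rfl
      exact hy0 Algebra.norm_zero
    · have hxi : ν i x = 1 := eq_one_of_near (ν i) (hν i hi) ((hx i hi).trans_le
        (hδ1.trans (by norm_num)))
      have hsmall : ν i (x / Algebra.norm R y - 1) < 1 := by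
        refine (hy1 i hi).trans_le ?_
        calc δ * (1 / 2) ^ n ≤ 1 * 1 :=
              mul_le_mul (hδ1.trans (by norm_num)) (pow_le_one₀ (by norm_num) (by norm_num))
                (by positivity) zero_le_one
          _ = 1 := one_mul _
      have hq1 : ν i (x / Algebra.norm R y) = 1 := eq_one_of_near (ν i) (hν i hi) hsmall
      have hNy : ν i (Algebra.norm R y) = 1 := by
        rw [map_div₀, hxi] at hq1
        have h3 : ν i (Algebra.norm R y) ≠ 0 := (ν i).ne_zero hy0
        field_simp at hq1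
        exact hq1.symm
      have e : Algebra.norm R y - x = -(Algebra.norm R y * (x / Algebra.norm R y - 1)) := by
        field_simp
        ring
      rw [e, (ν i).map_neg, map_mul, hNy, one_mul]
      exact hlt i hi

end general

section places

open Vale.Agent.P011.H738 Vale.Agent.P011.H271 Vale.Agent.P011.H73
open Vale.Agent.P011.H271.S3 (Ab)
open Vale.Agent.P011.H973.PF (Av')

variable {R R' : Type} [Field R] [Field R'] [Algebra R R'] [GFF R] [GFF R']
  [FiniteDimensional R R'] [Algebra.IsSeparable R R']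

/-- Multiples of a fixed element by small elements are small at all places above. -/
theorem small_smul (S : Finset (Place R)) (θ : R') {δ₁ : ℝ} (hδ₁ : 0 < δ₁) :
    ∃ δ : ℝ, 0 < δ ∧ ∀ c : R, (∀ v ∈ S, v.abv c < δ) → ∀ v ∈ S, ∀ w : Place R', Ab w v →
      w.abv (c • θ) < δ₁ := by
  classical
  have h1 : ∀ (v : Place R) (w : Place R'), ∃ δ : ℝ, 0 < δ ∧ (Ab w v → ∀ c : R, v.abv c < δ →
      w.abv (c • θ) < δ₁) := by
    intro v w
    by_cases hw : Ab w v
    · have hp : 0 ≤ w.abv θ := w.abv.nonneg _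
      obtain ⟨δ, hδ, h⟩ := hw.small (ε := δ₁ / (w.abv θ + 1)) (by positivity)
      refine ⟨δ, hδ, fun _ c hc => ?_⟩
      have h1 := h c hc
      rw [lt_div_iff₀ (by positivity)] at h1
      rw [Algebra.smul_def, map_mul]
      refine lt_of_le_of_lt (mul_le_mul_of_nonneg_left ?_ (w.abv.nonneg _)) h1
      linarith
    · exact ⟨1, one_pos, fun h => absurd h hw⟩
  choose δ hδ0 hδ using h1
  have h2 : ∀ v : Place R, ∃ m : ℝ, 0 < m ∧ ∀ w : Place R', Ab w v → m ≤ δ v w := by
    intro v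
    have hfin := Sp.above_finite (E := R') v
    rcases hfin.toFinset.eq_empty_or_nonempty with he | hne
    · refine ⟨1, one_pos, fun w hw => ?_⟩
      have : w ∈ hfin.toFinset := hfin.mem_toFinset.mpr hw
      rw [he] at this
      exact absurd this (Finset.notMem_empty _)
    · exact ⟨hfin.toFinset.inf' hne (δ v), (Finset.lt_inf'_iff _).mpr fun w _ => hδ0 v w,
        fun w hw => Finset.inf'_le _ (hfin.mem_toFinset.mpr hw)⟩
  choose m hm0 hm using h2
  rcases S.eq_empty_or_nonempty with rfl | hne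
  · exact ⟨1, one_pos, fun c _ v hv => absurd hv (Finset.notMem_empty _)⟩
  · refine ⟨S.inf' hne m, (Finset.lt_inf'_iff _).mpr fun v _ => hm0 v, fun c hc v hv w hw => ?_⟩
    exact hδ v w hw c ((hc v hv).trans_le ((Finset.inf'_le _ hv).trans (hm v w hw)))

/-- **The norm is open at one, with nearness, over function fields** (places above in the sense
of `Ab`). -/
theorem norm_open_ab (S : Finset (Place R)) {δ₁ : ℝ} (hδ₁ : 0 < δ₁) :
    ∃ δ : ℝ, 0 < δ ∧ ∀ x : R, (∀ v ∈ S, v.abv (x - 1) < δ) → ∀ ε : ℝ, 0 < ε →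
      ∃ x₁ : R', x₁ ≠ 0 ∧ (∀ v ∈ S, v.abv (x / Algebra.norm R x₁ - 1) < ε) ∧
        (∀ v ∈ S, v.abv (Algebra.norm R x₁ - x) < ε) ∧
          ∀ v ∈ S, ∀ w : Place R', Ab w v → w.abv (x₁ - 1) < δ₁ := by
  obtain ⟨δ, hδ, h⟩ := norm_open_abs (R := R) (R' := R') S (fun v => v.abv)
    (κ := {w : Place R' // ∃ v ∈ S, Ab w v}) (fun w => w.1.abv) (fun v _ => v.nonarch)
    (fun w => w.1.nonarch) (fun θ δ₁ hδ₁ => by
      obtain ⟨δ, hδ, h⟩ := small_smul S θ hδ₁
      exact ⟨δ, hδ, fun c hc w => by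
        obtain ⟨v, hv, hw⟩ := w.2
        exact h c hc v hv w.1 hw⟩) hδ₁
  refine ⟨δ, hδ, fun x hx ε hε => ?_⟩
  obtain ⟨y, h1, h2, h3, h4⟩ := h x hx ε hε
  exact ⟨y, h1, h2, h3, fun v hv w hw => h4 ⟨w, v, hv, hw⟩⟩

/-- Places above in the sense of `Av'` are above in the sense of `Ab`. -/
theorem ab_of_av' {w : Place R'} {v : Place R} (h : Av' w v) : Ab w v := by
  obtain ⟨v', h'⟩ := Sp.exists_below (F := R) w
  have h2 : v = v' := h.unique fun x => h'.le_one_iff
  rw [h2]
  exact h'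

/-- **The norm is open at one, with nearness, over function fields.** -/
theorem norm_open (S : Finset (Place R)) {δ₁ : ℝ} (hδ₁ : 0 < δ₁) :
    ∃ δ > 0, ∀ x : R, (∀ v ∈ S, v.abv (x - 1) < δ) → ∀ ε > 0,
      ∃ x₁ : R', x₁ ≠ 0 ∧ (∀ v ∈ S, v.abv (x / Algebra.norm R x₁ - 1) < ε) ∧
        (∀ v ∈ S, v.abv (Algebra.norm R x₁ - x) < ε) ∧
          ∀ v ∈ S, ∀ w : Place R', Av' w v → w.abv (x₁ - 1) < δ₁ := by
  obtain ⟨δ, hδ, h⟩ := norm_open_ab (R := R) (R' := R') S hδ₁
  refine ⟨δ, hδ, fun x hx ε hε => ?_⟩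
  obtain ⟨y, h1, h2, h3, h4⟩ := h x hx ε hε
  exact ⟨y, h1, h2, h3, fun v hv w hw => h4 v hv w (ab_of_av' hw)⟩

/-- One place. -/
theorem norm_open_one (v : Place R) {δ₁ : ℝ} (hδ₁ : 0 < δ₁) :
    ∃ δ > 0, ∀ x : R, v.abv (x - 1) < δ → ∀ ε > 0,
      ∃ x₁ : R', x₁ ≠ 0 ∧ v.abv (x / Algebra.norm R x₁ - 1) < ε ∧
        v.abv (Algebra.norm R x₁ - x) < ε ∧
          ∀ w : Place R', Av' w v → w.abv (x₁ - 1) < δ₁ := by
  obtain ⟨δ, hδ, h⟩ := norm_open (R := R) (R' := R') {v} hδ₁
  refine ⟨δ, hδ, fun x hx ε hε => ?_⟩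
  obtain ⟨y, h1, h2, h3, h4⟩ := h x (fun v' hv' => by
    rw [Finset.mem_singleton] at hv'
    subst hv'
    exact hx) ε hε
  exact ⟨y, h1, h2 v (Finset.mem_singleton_self v), h3 v (Finset.mem_singleton_self v),
    h4 v (Finset.mem_singleton_self v)⟩

end places

end Vale.Agent.P011.H813
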